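import Vale.Agent.Lib.P165.Crit

/-!
P165: a criterion for `p_c < p_u` in terms of the spectral gap (or of the isoperimetric constant)
and of the number of closed walks of length at most 24.
-/

open SimpleGraph Vale.Agent.P165

universe u

/-- Let `G` be an infinite connected quasi-transitive `D`-regular graph in which every vertex has
at most `C * D ^ ⌊n/2⌋` closed walks of length `n`, for all `n ≤ 24`. Then `p_c < p_u` as soon as
either the adjacency operator satisfies `⟨A f, f⟩ ≤ (D - g) ⟨f, f⟩` with `D g⁴ ≥ 2³⁴ C`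
(`0 < g ≤ 1`), or the vertex isoperimetric constant is at least `h` with `h⁸ ≥ 2⁴⁶ C D³` and
`D ≥ 2³⁸ C`. -/
theorem Vale.Agent.Results.P165.LocalCriterion.result (V : Type u) (G : SimpleGraph V) (D : ℕ)
    (C : ℝ) (hinf : Infinite V) (hconn : G.Connected) (hqt : QuasiTransitive G)
    (hreg : RegularOfDegree G D) (hC : 1 ≤ C)
    (hwalks : ∀ v, ∀ n ≤ 24, (closedWalks G v n : ℝ) ≤ C * (D : ℝ) ^ (n / 2)) :
    (∀ g : ℝ, 0 < g → g ≤ 1 → AdjacencyFormLE G (D - g) → 2 ^ 34 * C ≤ D * g ^ 4 →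
      pc G < pu G) ∧
    (∀ h : ℝ, 0 < h → h ≤ hV G → 2 ^ 38 * C ≤ D → 2 ^ 46 * C * (D : ℝ) ^ 3 ≤ h ^ 8 →
      pc G < pu G) :=
  ⟨fun g hg hg1 hform hlarge => criterion_main V G D g C hinf hconn hqt hreg hg hg1 hC
      (specBd_of_form _ hform) hwalks hlarge,
    fun h hh hV' hD hlarge => isoperimetric_main V G D h C hinf hconn hqt hreg hh hC hV' hwalks
      hD hlarge⟩
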