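import Vale.Agent.Lib.P165.Main

/-!
P165: nonuniqueness phase for products of a nonamenable graph with many further factors.
-/

open SimpleGraph Vale.Agent.P165

universe u v w

/-- For every degree bound `Δ` and every `h > 0` there is `k₀` such that the following holds. Let
`G` be an infinite connected quasi-transitive regular graph of degree at most `Δ` with
`h_V(G) ≥ h`, and let `H i` (`i ∈ ι`) be at least `k₀` connected quasi-transitive regular graphs
with degrees between `1` and `Δ` (finite or infinite, amenable or not). Then the Cartesian product
of `G` with all the `H i` is an infinite, connected, locally finite, quasi-transitive, nonamenable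
graph with `p_c < p_u`. -/
theorem Vale.Agent.Results.P165.ManyFactors.result (Δ : ℕ) (h : ℝ) (hh : 0 < h) :
    ∃ k₀ : ℕ, ∀ (V : Type u) (G : SimpleGraph V) (ι : Type v) [Fintype ι] (W : ι → Type w)
      (H : ∀ i, SimpleGraph (W i)),
      Infinite V → G.Connected → QuasiTransitive G → (∃ d ≤ Δ, RegularOfDegree G d) → h ≤ hV G →
      (∀ i, (H i).Connected ∧ QuasiTransitive (H i) ∧
        ∃ e, 1 ≤ e ∧ e ≤ Δ ∧ RegularOfDegree (H i) e) →
      k₀ ≤ Fintype.card ι →
      Infinite (V × ∀ i, W i) ∧ (G □ cartesianProduct H).Connected ∧
        LocallyFinite (G □ cartesianProduct H) ∧ QuasiTransitive (G □ cartesianProduct H) ∧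
        Nonamenable (G □ cartesianProduct H) ∧
        pc (G □ cartesianProduct H) < pu (G □ cartesianProduct H) :=
  product_main Δ h hh
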