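import Vale.Agent.Lib.P165.DrawProof

/-!
# P165: `p_c < p_u` for products with many factors, and a local criterion for `p_c < p_u`
-/

open MeasureTheory ProbabilityTheory SimpleGraph Vale.Agent.P165.Draw

universe u v w

open Classical in
/-- First part: for a nonamenable quasi-transitive regular graph `G` and sufficiently many further
connected quasi-transitive regular factors of bounded degree, the Cartesian product satisfies the
hypotheses and the conclusion of Q1. Second part: a criterion for the conclusion of Q1 in terms of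
the numbers of closed walks of length at most 24 and of the spectral gap or the isoperimetric
constant. -/
theorem Vale.Agent.Results.P165.ProductsAndCriterion.result :
    (∀ (Δ : ℕ) (h : ℝ), 0 < h → ∃ k₀ : ℕ, ∀ (V : Type u) (G : SimpleGraph V) (ι : Type v)
        [Fintype ι] (W : ι → Type w) (H : ∀ i, SimpleGraph (W i)),
      Infinite V → G.Connected → FinitelyManyOrbits G → ExpandsBy G h →
      (∃ d ≤ Δ, ∀ x, (G.neighborSet x).encard = d) →
      (∀ i, (H i).Connected ∧ FinitelyManyOrbits (H i) ∧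
        ∃ d, 1 ≤ d ∧ d ≤ Δ ∧ ∀ x, ((H i).neighborSet x).encard = d) →
      k₀ ≤ Fintype.card ι →
      Hypotheses (G □ productGraph H) ∧ NonuniquenessPhase (G □ productGraph H)) ∧
    (∀ (V : Type u) (G : SimpleGraph V) (D : ℕ) (C : ℝ), Infinite V → G.Connected →
      FinitelyManyOrbits G → (∀ x, (G.neighborSet x).encard = D) → 1 ≤ C →
      (∀ x, ∀ n ≤ 24, ({w : G.Walk x x | w.length = n}.ncard : ℝ) ≤ C * (D : ℝ) ^ (n / 2)) →
      (∀ g : ℝ, 0 < g → g ≤ 1 → 2 ^ 34 * C ≤ D * g ^ 4 →
        (∀ (S : Finset V) (f : V → ℝ),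
          ∑ x ∈ S, ∑ y ∈ S with G.Adj x y, f x * f y ≤ (D - g) * ∑ x ∈ S, f x ^ 2) →
        NonuniquenessPhase G) ∧
      (∀ h : ℝ, 0 < h → ExpandsBy G h → 2 ^ 38 * C ≤ D → 2 ^ 46 * C * (D : ℝ) ^ 3 ≤ h ^ 8 →
        NonuniquenessPhase G)) :=
  combined.{u, v, w}
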